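import Crest.Agent.X212.Cs52.Wf
import Crest.Agent.X212.Mv17.Thm

/-!
# X212 / Cs52, part Sph (helper52): the sphere of the neck is the sum of the two spheres

* `ip_pot` : a form with a compactly supported potential `f dθ` pairs to zero; `thm_eq` : the potential of `thm`;
* `sphStmt : Cut19.SphStmt`.
-/

set_option autoImplicit false
set_option linter.unusedSectionVars false

open Set Filter Topology Function
open scoped ContDiff Manifold Real
open Crest.Agent.R208.F (Ext)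
open Crest.Agent.X212.Pj41 (FSm)
open Crest.Agent.X212.Line51 hiding tp Uni
open Crest.Agent.X212.Orx52 Crest.Agent.X212.Rod53 Crest.Agent.X212.Dr59
open Crest.Agent.X212.Cut19 (wN isN N0 R0 rd ct)
open Crest.Agent.X212.Geo28 (M4 Nc IY R3)
open Crest.Agent.X212.Pen22 (thm Stp)

noncomputable section

namespace Crest.Agent.X212.Cs52

theorem ip_pot {X : M4} {D U K : Set X.M} (hD : Dense D) (oD : IsOpen D) {F y : X.Fm} {f : X.M → ℝ}
    {g : X.M → Circle} (hF : Sm X.I univ F) (hf : ∀ p, FSm X.I f p) (hg : ∀ p, CSm X.I g p ∨ f =ᶠ[𝓝 p] 0)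
    (e : ∀ p ∈ D, F p = dM X.I (f • ang X.I g) p) (hy : Cl X.I 2 U y) (hK : IsCompact K) (s : K ⊆ U)
    (h0 : ∀ p, p ∉ K → f p = 0) : X.ip y F = 0 := by
  have b : Sm X.I univ (f • ang X.I g) := fun p _ => (hg p).elim (fun k => (smAt_ang k).fsmul le_rfl (hf p))
    fun k => cAt_zero.congr (k.mono fun q l => by simp [l])
  rw [show F = dM X.I (f • ang X.I g) from funext fun p => form_eq_of_dense hD ((hF p trivial).of_le (by simp))
    ((b p trivial).dM.of_le (by simp)) (Eventually.of_forall e)]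
  exact ip_dM X.ori hy b hK s fun p hp => by simp [h0 p hp]

section thm

variable {R : R3} {X : M4} (k : Nc R.toO3 X (Iio 0)) {χ : ℝ → ℝ} (hχ : Stp χ) {p : X.M}
include hχ

theorem st_one (h : -1 < k.tm p) : (fun q => χ (k.tm q)) =ᶠ[𝓝 p] fun _ => 1 :=
  (k.cont.continuousAt.eventually (lt_mem_nhds h)).mono fun _ l => hχ.2.2 _ l.le

omit hχ in
theorem st_in (h : k.tm p < 0) : (fun q => χ (k.tm q)) =ᶠ[𝓝 p] (fun z => χ z.2) ∘ k.k.symm :=
  (k.cont.continuousAt.eventually (gt_mem_nhds h)).mono fun _ l => congrArg χ (Mv17.nc_snd k l).symm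

theorem sm_st (p : X.M) : FSm X.I (fun q => χ (k.tm q)) p := by
  by_cases h : k.tm p < 0
  · exact (((hχ.1.contMDiff.comp contMDiff_snd) _).comp p
      (ld_pd k.k.symm (k.tgt.ge h)).contMDiffAt).congr_of_eventuallyEq (st_in k h)
  · exact contMDiffAt_const.congr_of_eventuallyEq (st_one k hχ (by linarith))

theorem thm_eq {g : X.M → Circle} (hg : ∀ z : R.Y.M × ℝ, z.2 < 0 → g (k.k z) = (R.φ z.1).2) (hp : CSm X.I g p) :
    thm R k χ p = dM X.I ((fun q => χ (k.tm q)) • ang X.I g) p := by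
  rw [dM_fsmul ne0 ((sm_st k hχ p).mdifferentiableAt ne0) (smAt_ang hp), dM_ang hp, smul_zero, add_zero]
  by_cases h : k.tm p < 0
  · have d := (ld_pd k.k.symm (k.tgt.ge h)).mdifferentiableAt ne0
    rw [thm, psh, indicator_of_mem (k.tgt.ge h), pm_mul, Pi.mul_apply,
      pm_df (g := fun z => χ z.2) d (((hχ.1.contMDiff.comp contMDiff_snd) _).mdifferentiableAt ne0), df_congr (st_in k h),
      pm_ang (g := fun z => (R.φ z.1).2) ((Mv17.sm_uR R _).comp (f := Prod.fst) _ contMDiffAt_fst) d]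
    refine congrArg _ (ang_congr ((k.cont.continuousAt.eventually (gt_mem_nhds h)).mono fun q l => ?_))
    exact (hg _ ((Mv17.nc_snd k l).trans_lt l)).symm.trans (congrArg g (k.k.right_inv (k.tgt.ge l)))
  · rw [thm, psh, indicator_of_notMem fun l => h (k.tgt.le l), df_congr (st_one k hχ (by linarith))]
    simp only [df, mf, mfderiv_const]
    exact ((congrArg (· * _) (map_zero (ExteriorAlgebra.ι ℝ))).trans (zero_mul _)).symm

end thm

theorem pth_mid {V : Type*} [NormedAddCommGroup V] [NormedSpace ℝ V] {m : ℤ → V} {i j : ℤ} {x : V} {t : ℝ}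
    (h : ∀ l, i ≤ l → l ≤ j → m l = x) (ht : t ∈ Ico (i : ℝ) j) : pth m t = x := by
  have a : i ≤ ⌊t⌋ := Int.le_floor.2 ht.1
  have b : ⌊t⌋ < j := Int.floor_lt.2 ht.2
  rw [pth, h _ a b.le, h _ (by omega) (by omega), sub_self, smul_zero, add_zero]

/-- the indicator of the two spheres -/
def nS (j : ℤ) : ℝ := if 0 ≤ j ∧ j ≤ 20 then 1 else 0

theorem mN_add : mN false + mN true = fun j => nS j • ((0, 1) : ℝ × ℝ) := funext fun j => by
  simp only [Pi.add_apply, mN, nS]
  split_ifs <;> first | omega | simp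

theorem nS_one {t : ℝ} (h : t ∈ Ioo (-1 / 3 : ℝ) (20 + 1 / 3)) : pth nS t = 1 := by
  rcases lt_or_ge t 0 with a | a
  · exact (pth_int (j := 0) (abs_lt.2 ⟨by push_cast; linarith [h.1], by push_cast; linarith⟩)).trans (by simp [nS])
  rcases lt_or_ge t 20 with b | b
  · exact pth_mid (i := 0) (j := 20) (fun l c d => if_pos ⟨c, d⟩) ⟨by exact_mod_cast a, by exact_mod_cast b⟩
  · exact (pth_int (j := 20) (abs_lt.2 ⟨by push_cast; linarith, by push_cast; linarith [h.2]⟩)).trans (by simp [nS])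

theorem nS_zero {t : ℝ} (h : 11 ≤ |t - 10|) : pth nS t = 0 := by
  rcases le_abs.1 h with a | a
  · exact pth_hi (j := 21) (fun l c => if_neg (by omega)) (by push_cast; linarith)
  · exact pth_lo (j := -1) (fun l c => if_neg (by omega)) (by push_cast; linarith)

/-- the angle of the neck -/
abbrev gN : XN → Circle := chi torT (wd wN) (0, 1)

/-- the coefficient of the potential -/
def fN (p : XN) : ℝ := (1 - gw torT (wd wN) (1 / 2) p) * pth nS (torT.time _ p)

theorem sm_fN (p : XN) : FSm (𝓡 4) fN p :=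
  Pj41.FSm.mul' (contMDiffAt_const.sub (sm_gw one_half_pos p)) (sm_time (contDiff_pth nS) p)

theorem EN_add {p : XN} (h : p ∈ off torT (wd wN)) : (EN false + EN true) p = dM (𝓡 4) (fN • ang (𝓡 4) gN) p := by
  rw [Pi.add_apply, (wf_EN false).tg.eq p h, (wf_EN true).tg.eq p h,
    ← dM_add ne0 ((wf_EN false).tg.sm p h) ((wf_EN true).tg.sm p h)]
  refine congrArg (dM (𝓡 4) · p) (funext fun q => ?_)
  have e := congrFun ((pth_add _ _).symm.trans (congrArg pth mN_add)) (torT.time _ q)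
  rw [pth_smul, Pi.add_apply] at e
  have e1 := congrArg Prod.fst e
  have e2 := congrArg Prod.snd e
  simp only [Prod.fst_add, Prod.snd_add, Prod.smul_fst, Prod.smul_snd, smul_eq_mul, mul_zero, mul_one] at e1 e2
  simp only [Pi.add_apply, pot_apply, tq_apply, ax, pm_zero, Pi.zero_apply, smul_zero, add_zero, Pi.smul_apply', fN,
    ← e2, eq_neg_of_add_eq_zero_left e1]
  module

theorem csm_gN {p : XN} (h : p ∉ off torT (wd wN) → torT.time _ p ∉ Icc (0 : ℝ) 20) : CSm (𝓡 4) gN p :=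
  csm_chi (tor_torT _ p) fun k => (mem_Jr.1 ((not_and_or.1 (h k)).elim
    (fun l => Iio_subset_Jr (j := -1) (α := (1, 0)) (fun n c => by rw [wN, Cut19.sw, if_pos (by omega)]; exact PM.refl _)
      (by simpa using l))
    fun l => Ioi_subset_Jr (i := 20) (fun n c => by
      rw [wN, Cut19.sw, if_neg (by omega), if_neg (by omega), if_neg (by omega)]; exact PM.refl _)
      (by simpa using l))).mono fun _ l => (dot_pm l).2 rfl

/-- the end of the plumbing -/
abbrev kN0 : Nc R0.toO3 N0.X (Iio 0) := N0.ki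

theorem lt_tm {p : XN} {t : ℝ} (h : t < 1) : t < kN0.tm p ↔ torT.rr (wd wN) 10 p < rd 12 (t + 4) :=
  lt_sub_iff_add_lt.trans (Cut19.lt_ct (by linarith))

theorem gN_k (z : R0.Y.M × ℝ) : gN (kN0.k z) = (R0.φ z.1).2 :=
  (chi_rod0 Cut19.u10 ((Cut19.arc_sw (PM.refl _)).mem_Ur (z.1, z.2 + 4)) rfl).trans (zpow_one _)

theorem dN_sub (s : Bool) : dN s (Iio 7) ⊆ kN0.tm ⁻¹' Ioi (-4) := fun p hp => (lt_tm (by norm_num)).2 (by
  have := torT.rr_le 10 (cN s) p
  have : |cN s - 10| = 5 := by cases s <;> norm_num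
  linarith [Cut19.lt_rd 12 (-4 + 4), show torT.rr _ _ p < 7 from hp.2])

theorem ip_thm {χ : ℝ → ℝ} (hχ : Stp χ) {y : N0.Fm} (hy : Cl N0.X.I 2 (kN0.tm ⁻¹' Ioi (-4)) y) :
    N0.X.ip y (thm R0 kN0 χ) = 2 * π * (N0.X.ip y (eN false) + N0.X.ip y (eN true)) := by
  have c : ∀ s, Cs N0.X.I 2 (kN0.tm ⁻¹' Ioi (-4)) (EN s) := fun s =>
    (cs_EN s).mono ((dN_mono s s67).trans (dN_sub s))
  have t := (Mv17.thmStmt R0 N0.X kN0 χ hχ).1.mono (L := kN0.tm ⁻¹' Ioi (-4))
    (preimage_mono fun _ h => lt_of_lt_of_le (by norm_num) h.1)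
  have z := ip_pot (X := N0.X) (f := fN - fun q : XN => χ (kN0.tm q)) (g := gN) (K := torT.disc _ 10 (Iic (rd 12 1)))
    dense_off isOpen_off (((c false).add (c true)).sub' t).cl.sm (fun p => (sm_fN p).sub (sm_st kN0 hχ p))
    (fun p => ?_) (fun p hp => ?_) hy (torT.isCompact_disc isClosed_Iic (fun _ h => h) fun x _ => isN.loc x)
    (fun p hp => (lt_tm (by norm_num)).2 (lt_of_le_of_lt hp.2 (Cut19.rd_lt.2 (by norm_num)))) fun p hp => ?_
  · rw [sub_eq_add_neg, M4.ip, ip_add_right ((c false).add (c true)) t.neg N0.X.ori hy.sm,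
      ip_add_right (c false) (c true) N0.X.ori hy.sm, ← neg_one_smul ℝ (thm R0 kN0 χ), ip_smul_right] at z
    have e : ∀ s, N0.X.ip y (eN s) = (2 * π)⁻¹ * ip N0.X.I N0.X.o y (EN s) := fun s => ip_smul_right _ _ _ _
    rw [e, e, ← mul_add, mul_inv_cancel_left₀ Real.two_pi_pos.ne']
    linarith
  · refine (Classical.em _).imp_right (fun k => ?_) |>.imp_left (csm_gN (p := p))
    obtain ⟨k1, k2⟩ := Classical.not_imp.1 k
    have k3 := not_not.1 k2
    filter_upwards [gw_axis one_half_pos k1, st_one kN0 hχ ((lt_tm (p := p) (by norm_num)).2 (by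
      rw [(torT.rr_axis k1).2]
      exact (abs_lt.2 ⟨by linarith [k3.1], by linarith [k3.2]⟩).trans (Cut19.lt_rd 12 _))),
      torT.continuous_time.continuousAt.eventually (isOpen_Ioo.mem_nhds
        (show _ ∈ Ioo (-1 / 3 : ℝ) (20 + 1 / 3) from ⟨by linarith [k3.1], by linarith [k3.2]⟩))] with q a1 a2 a3
    exact sub_eq_zero.2 (((congrArg₂ (fun a b => (1 - a) * b) a1 (nS_one a3)).trans (by rw [mul_one]; exact sub_zero _)).trans
      a2.symm)
  · have g : CSm (M := N0.X.M) N0.X.I gN p := csm_off (tor_torT _ p) hp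
    have f : FSm (M := N0.X.M) N0.X.I fN p := sm_fN p
    exact (congrArg₂ (fun a b : Ext N0.X.X.E => a - b) (EN_add hp) (thm_eq kN0 hχ (fun z _ => gN_k z) g)).trans
      ((dM_sub ne0 ((smAt_ang g).fsmul le_rfl f) ((smAt_ang g).fsmul le_rfl (sm_st kN0 hχ p))).symm.trans
        (congrArg (dM N0.X.I · p) (sub_smul _ _ _).symm))
  · have r : rd 12 1 < torT.rr (wd wN) 10 p := lt_of_not_ge fun l => hp ⟨tor_torT _ p, l⟩
    have r' := (Cut19.lt_rd 12 1).trans r
    refine sub_eq_zero.2 (Eq.trans ?_ (hχ.2.1 _ (le_of_not_gt fun l =>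
      r.not_gt (by simpa only [show (-3 : ℝ) + 4 = 1 by norm_num] using (lt_tm (by norm_num)).1 l))).symm)
    by_cases l : torT.yy (wd wN) p ≤ 2 * (1 / 2)
    · rw [fN, nS_zero (le_of_not_gt fun a => r'.not_ge (Real.sqrt_le_iff.2 ⟨by norm_num, ?_⟩)), mul_zero]
      nlinarith [abs_lt.1 a, (torT.eta_of_tor (tor_torT _ p)).1]
    · rw [fN, (gw_one one_half_pos fun a => l a.2).self_of_nhds]
      exact mul_eq_zero_of_left (sub_self _) _

theorem exists_stp : ∃ χ, Stp χ :=
  ⟨fun t => sw 1 (t + 4), (contDiff_sw 1).comp (contDiff_id.add contDiff_const),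
    fun _ h => sw_zero one_pos (by linarith), fun _ h => sw_one one_pos (by linarith)⟩

/-- generators with the right product are `± eN` -/
theorem gn_two {e : Bool → N0.Fm} (h : ∀ s, Cut19.Gn s (e s)) (h1 : N0.X.ip (e false) (e true) = 1) :
    ∃ ε : ℝ, (ε = 1 ∨ ε = -1) ∧ ∀ s y, Cl N0.X.I 2 (Cut19.UN s) y → N0.X.ip y (e s) = ε * N0.X.ip y (eN s) := by
  choose ε a b using fun s => gn0 (h s)
  obtain ⟨K, hK⟩ := h false
  have e1 := b true _ ((hK.cs ()).on _)
  have e2 := b false _ ((cs_eN true).on _)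
  rw [ee0 true false, if_neg (by decide), mul_one] at e2
  have e4 : N0.X.ip (e false) (eN true) = N0.X.ip (eN true) (e false) := ip_comm (hK.cs ()).cl.dg _
  have e3 : ε true * ε false = 1 := by rw [← h1, e1, e4, e2]
  refine ⟨ε false, a false, fun s y hy => (b s y hy).trans ?_⟩
  cases s
  · rfl
  · refine congrArg (· * _) ?_
    rcases a true with c | c <;> rw [c] at e3 ⊢ <;> linarith

/-- **CUT-SPH** -/
theorem sphStmt : Cut19.SphStmt := fun e h h1 => by
  obtain ⟨χ, hχ⟩ := exists_stp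
  obtain ⟨ε, a, b⟩ := gn_two h h1
  refine ⟨χ, ε, hχ, a, fun y hy => (ip_thm hχ hy).trans ?_⟩
  rw [b false y (hy.mono (dN_sub false)), b true y (hy.mono (dN_sub true))]
  rcases a with rfl | rfl <;> ring

end Crest.Agent.X212.Cs52
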