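import Crest.Agent.X212.Cut19.Stm
import Crest.Agent.X212.Dr59.NbT
import Crest.Agent.X212.Dr59.Rod

/-!
# X212 / Cs52, part Wf (helper52): the duals of the two spheres of the plumbing

* `mN s` (characters), `EN s` (toric forms), `eN s = EN s / 2 π`, `cs_eN`, `ip_mN`, `ip_eN`, `lat_eN`;
* `gn_eps` : every generator is `± eN s`.
-/

set_option autoImplicit false
set_option linter.unusedSectionVars false

open Set Filter Topology Function
open scoped ContDiff Manifold Real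
open Crest.Agent.R208.F (Ext)
open Crest.Agent.X212.Line51 hiding tp Uni
open Crest.Agent.X212.Orx52 Crest.Agent.X212.Rod53 Crest.Agent.X212.Dr59
open Crest.Agent.X212.Cut19 (wN isN oc ori_tor N0 UN L1)

noncomputable section

namespace Crest.Agent.X212.Cs52

/-- the plumbing -/
abbrev XN : Type := X torT (wd wN)

/-- its orientation -/
abbrev oN : XN → Ext E4 := oc isN.loc

/-- the centre of a sphere -/
abbrev cN (s : Bool) : ℝ := cond s 15 5

/-- half discs about the centre -/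
abbrev dN (s : Bool) (S : Set ℝ) : Set XN := torT.disc (wd wN) (cN s) S

/-- the characters of the two spheres -/
def mN : Bool → ℤ → ℝ × ℝ
  | false, j => if j < 0 then 0 else if j < 10 then (0, 1) else if j = 10 then (1, 0) else 0
  | true, j => if j < 10 then 0 else if j = 10 then (-1, 1) else if j ≤ 20 then (0, 1) else 0

/-- the orders of the two spheres -/
def kN (s : Bool) (j : ℤ) : ℤ := if cond s 10 0 ≤ j ∧ j < cond s 20 10 then 1 else 0

theorem step_mN (s : Bool) (j : ℤ) : dr (mN s (j + 1) - mN s j) (wN j) = 0 := by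
  cases s <;> simp only [mN, wN, Cut19.sw] <;> split_ifs <;> first | omega | simp [dr]

theorem dr_mN (s : Bool) (j : ℤ) : dr (mN s j) (wN j) = kN s j := by
  cases s <;> simp only [mN, wN, Cut19.sw, kN, cond] <;> split_ifs <;> first | omega | simp [dr]

theorem exE (s : Bool) : ∃ F, WF torT wN (1 / 2) 0 (mN s) (fun _ => 0) F :=
  exists_WF one_half_pos (xa_zero torT 2) (step_mN s) _

/-- the toric forms -/
def EN (s : Bool) : XN → Ext E4 := (exE s).choose

theorem wf_EN (s : Bool) : WF torT wN (1 / 2) 0 (mN s) (fun _ => 0) (EN s) := (exE s).choose_spec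

/-- the normalised forms -/
def eN (s : Bool) : XN → Ext E4 := (2 * π)⁻¹ • EN s

theorem cs_EN (s : Bool) : Cs (𝓡 4) 2 (dN s (Iic 6)) (EN s) :=
  ((wf_EN s).cs_ov (xa_zero torT 2) (by norm_num) isN (i := cond s 9 (-1)) (j := cond s 21 11)
    (fun k a => by cases s <;> simp only [mN, cond, smul_zero] at a ⊢ <;> exact if_pos (by omega))
    fun k a => by
      cases s <;> simp only [mN, cond, smul_zero] at a ⊢ <;>
        rw [if_neg (by omega), if_neg (by omega), if_neg (by omega)]).mono fun p hp => ⟨hp.1, by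
      obtain ⟨-, ⟨a1, a2⟩, a3, a4⟩ := hp
      refine Real.sqrt_le_iff.2 ⟨by norm_num, ?_⟩
      cases s <;> simp only [cond, cN] at a1 a2 ⊢ <;> push_cast at a1 a2 <;> nlinarith⟩

theorem cs_eN (s : Bool) : Cs (𝓡 4) 2 (dN s (Iic 6)) (eN s) := (cs_EN s).smul _

theorem dN_mono (s : Bool) {S S' : Set ℝ} (h : S ⊆ S') : dN s S ⊆ dN s S' := fun _ k => ⟨k.1, h k.2⟩

theorem s67 : Iic (6 : ℝ) ⊆ Iio 7 := Iic_subset_Iio.2 (by norm_num)

theorem nv_wN (s : Bool) : nv wN (cond s 8 (-2)) (cond s 21 11) = 1 + 1 := by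
  classical
  rw [nv, show (Finset.Ioc (cond s 8 (-2)) (cond s 21 11)).filter (fun c => Uni (wN (c - 1)) (wN c)) =
    {cond s 10 0, cond s 20 10} from Finset.ext fun c => ?_]
  · cases s <;> rfl
  · cases s <;> simp only [Finset.mem_filter, Finset.mem_Ioc, cond, Finset.mem_insert, Finset.mem_singleton, wN,
      Cut19.sw] <;> split_ifs <;> simp [Uni, dt] <;> omega

theorem hd_dN (s : Bool) : ∃ B, Acy (𝓡 4) B ∧ Hd (𝓡 4) B (dN s (Iio 7)) 1 :=
  have := torT.secondCountable isN.loc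
  have := Orx52.sigmaCompact (𝓡 4) XN
  hd_disc isN (by cases s <;> decide) (by cases s <;> norm_num) (by cases s <;> norm_num) (nv_wN s)

theorem bd_dN (s : Bool) : Bd (𝓡 4) 2 (dN s (Iio 7)) 1 :=
  have := torT.secondCountable isN.loc
  have := Orx52.sigmaCompact (𝓡 4) XN
  let ⟨_, b1, b2⟩ := hd_dN s
  b2.bd2 (bd_zero.2 (b1.hz 1))

theorem ori_oN : Int54.Ori (𝓡 4) oN := (oX_spec isN.loc ori_tor).ori

variable [MeasurableSpace E4] [BorelSpace E4] [MeasurableSpace XN] [BorelSpace XN] [SecondCountableTopology XN]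
  {U K : Set XN} {F e y : XN → Ext E4} {m : ℤ → ℝ × ℝ} {s : Bool}

/-- the degree of a toric class on a sphere -/
theorem ip_mN (hU : IsOpen U) (hs : dN s (Iic 6) ⊆ U) (h : WC torT wN U F m) {k : ℤ → ℝ}
    (hk : ∀ j, dr (m j) (wN j) = k j) :
    ip (𝓡 4) oN F (eN s) = 2 * π * cond s (k 9 - k 10 - k 20) (k (-1) - k 9 + k 10) := by
  have hS : ∀ l, l ∉ (cond s {9, 10, 20} {-1, 9, 10} : Finset ℤ) → mN s (l + 1) = mN s l := fun l a => by
    cases s <;> simp only [cond, Finset.mem_insert, Finset.mem_singleton, mN] at a ⊢ <;> split_ifs <;>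
      first | omega | rfl
  have hO := (oX_spec isN.loc ori_tor).neg
  rw [neg_neg] at hO
  rw [eN, ip_smul_right, ← neg_neg oN, ip_neg_ori, h.ip_eq hO (pos_id.2 (oriOn ori_oT _).same) isN hU (wf_EN s)
    ((cs_EN s).mono hs) hS, ← funext hk]
  cases s <;> simp [mN, det2, dr, Cut19.sw] <;> field_simp <;> ring

theorem wc_eN (s : Bool) (U : Set XN) : WC torT wN U (eN s) ((2 * π)⁻¹ • mN s) := ((wf_EN s).wc U).smul _

theorem ip_eN (s t : Bool) : ip (𝓡 4) oN (eN s) (eN t) = if s = t then -1 else 1 := by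
  rw [ip_mN isOpen_univ (subset_univ _) (wc_eN s _) fun j => (dr_smul _ _ _).trans (congrArg _ (dr_mN s j))]
  cases s <;> cases t <;> simp [kN] <;> field_simp

theorem lat_eN (s : Bool) (hK : dN s (Iic 6) ⊆ K) (h : K ⊆ dN s (Iio 7)) :
    Lat (𝓡 4) oN (dN s (Iio 7)) K (fun _ : Unit => eN s) (Matrix.diagonal fun _ => -1) :=
  ⟨ori_oN, torT.isOpen_disc isOpen_Iio, h, bd_dN s, fun _ => (cs_eN s).mono hK, fun _ _ => by
    rw [ip_eN, if_pos rfl, Matrix.diagonal_apply_eq], by simp⟩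

/-- every generator is `± eN s` -/
theorem gn_eps (h : Lat (𝓡 4) oN (dN s (Iio 7)) K (fun _ : Unit => e) (Matrix.diagonal fun _ => -1)) :
    ∃ ε : ℝ, (ε = 1 ∨ ε = -1) ∧ ∀ y, Cl (𝓡 4) 2 (dN s (Iio 7)) y → ip (𝓡 4) oN y e = ε * ip (𝓡 4) oN y (eN s) := by
  have c := (cs_eN s).mono (dN_mono s s67)
  have k : ∀ y, Cl (𝓡 4) 2 (dN s (Iio 7)) y →
      ip (𝓡 4) oN y (eN s) = -(ip (𝓡 4) oN y e * ip (𝓡 4) oN (eN s) e) := fun y hy => by
    rw [h.diag hy c, Fintype.sum_unique, div_neg, div_one]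
  have k1 := k _ (c.on _)
  rw [ip_eN, if_pos rfl, neg_inj] at k1
  refine ⟨-ip (𝓡 4) oN (eN s) e, (mul_self_eq_one_iff.1 k1.symm).symm.imp (fun a => by rw [a, neg_neg])
    fun a => by rw [a], fun y hy => ?_⟩
  rw [k y hy]
  linear_combination ip (𝓡 4) oN y e * k1

/-! ### the same on `N0` -/

omit [MeasurableSpace E4] [BorelSpace E4] [MeasurableSpace XN] [BorelSpace XN] [SecondCountableTopology XN]

theorem ip0 (hU : IsOpen U) (hs : dN s (Iic 6) ⊆ U) (h : WC torT wN U F m) {k : ℤ → ℝ}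
    (hk : ∀ j, dr (m j) (wN j) = k j) :
    N0.X.ip F (eN s) = 2 * π * cond s (k 9 - k 10 - k 20) (k (-1) - k 9 + k 10) :=
  @ip_mN N0.X.X.mE N0.X.X.bE N0.X.X.ms N0.X.X.bs N0.X.X.sc _ _ _ _ hU hs h _ hk

theorem ee0 (s t : Bool) : N0.X.ip (eN s) (eN t) = if s = t then -1 else 1 :=
  @ip_eN N0.X.X.mE N0.X.X.bE N0.X.X.ms N0.X.X.bs N0.X.X.sc s t

theorem lat0 (s : Bool) (hK : dN s (Iic 6) ⊆ K) (h : K ⊆ dN s (Iio 7)) : L1 N0.X (UN s) K (eN s) :=
  @lat_eN N0.X.X.mE N0.X.X.bE N0.X.X.ms N0.X.X.bs N0.X.X.sc _ s hK h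

theorem gn0 (h : Cut19.Gn s e) : ∃ ε : ℝ, (ε = 1 ∨ ε = -1) ∧
    ∀ y, Cl N0.X.I 2 (UN s) y → N0.X.ip y e = ε * N0.X.ip y (eN s) :=
  let ⟨_, k⟩ := h
  @gn_eps N0.X.X.mE N0.X.X.bE N0.X.X.ms N0.X.X.bs N0.X.X.sc _ _ s k

end Crest.Agent.X212.Cs52
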